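import Vale.Agent.P092.H514.NoInvRP

/-!
P092, TEAM P, row [P-PROX] (helper673), file 1: recurrence modulo a subgroup of finite covolume,
and proximality of such a subgroup on a space on which a group element contracts.
-/

set_option linter.all false

open MeasureTheory Set Topology Filter
open scoped Pointwise ENNReal

namespace Vale.Agent.P092.H673.Px

open Vale.Agent.P092.H514.NI (Covol)

section rec

variable {E : Type*} [Group E] [TopologicalSpace E] [IsTopologicalGroup E]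
  [SecondCountableTopology E]

/-- the measure of the image of a nonempty open set is not zero -/
theorem meas_ne_zero (Γ : Subgroup E) (ν : @Measure (E ⧸ Γ) (borel (E ⧸ Γ))) (hν0 : ν ≠ 0)
    (hν : ∀ g : E, ∀ s : Set (E ⧸ Γ), MeasurableSet[borel (E ⧸ Γ)] s →
      ν ((fun x => g • x) ⁻¹' s) = ν s) {V : Set E} (hV : IsOpen V) (hVn : V.Nonempty) :
    ν ((QuotientGroup.mk : E → E ⧸ Γ) '' V) ≠ 0 := by
  letI : MeasurableSpace (E ⧸ Γ) := borel (E ⧸ Γ)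
  haveI : BorelSpace (E ⧸ Γ) := ⟨rfl⟩
  obtain ⟨v, hv⟩ := hVn
  intro h0
  have hO : IsOpen ((QuotientGroup.mk : E → E ⧸ Γ) '' V) := QuotientGroup.isOpenMap_coe V hV
  have hc : ∀ g : E, Continuous fun x : E ⧸ Γ => g • x := fun g => continuous_const_smul g
  have hL : IsLindelof (univ : Set (E ⧸ Γ)) := by
    have h1 : IsLindelof (univ : Set E) := isLindelof_univ
    have h2 := h1.image (f := (QuotientGroup.mk : E → E ⧸ Γ)) QuotientGroup.continuous_mk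
    rwa [image_univ, (QuotientGroup.mk_surjective (s := Γ)).range_eq] at h2
  obtain ⟨t, ht, hcov⟩ := hL.elim_countable_subcover
    (fun g : E => (fun x : E ⧸ Γ => g • x) ⁻¹' ((QuotientGroup.mk : E → E ⧸ Γ) '' V))
    (fun g => hO.preimage (hc g)) (by
      intro x _
      obtain ⟨a, rfl⟩ := QuotientGroup.mk_surjective x
      refine mem_iUnion.2 ⟨v * a⁻¹, v, hv, ?_⟩
      change (QuotientGroup.mk v : E ⧸ Γ) = QuotientGroup.mk (v * a⁻¹ * a)
      rw [inv_mul_cancel_right])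
  refine hν0 (Measure.measure_univ_eq_zero.1 ?_)
  refine measure_mono_null hcov ?_
  rw [measure_biUnion_null_iff ht]
  intro g _
  rw [hν g _ hO.measurableSet]
  exact h0

/-- **Recurrence** modulo a subgroup of finite covolume. -/
theorem recur (Γ : Subgroup E) (hΓ : Covol Γ) (b : E) {V : Set E} (hV : IsOpen V)
    (hVn : V.Nonempty) (N₀ : ℕ) :
    ∃ n : ℕ, N₀ ≤ n ∧ ∃ v₁ ∈ V, ∃ v₂ ∈ V, v₂⁻¹ * b ^ n * v₁ ∈ Γ := by
  obtain ⟨ν, hν0, hνf, hν⟩ := hΓ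
  have hpos := meas_ne_zero Γ ν hν0 hν hV hVn
  letI : MeasurableSpace (E ⧸ Γ) := borel (E ⧸ Γ)
  haveI : BorelSpace (E ⧸ Γ) := ⟨rfl⟩
  have hO : IsOpen ((QuotientGroup.mk : E → E ⧸ Γ) '' V) := QuotientGroup.isOpenMap_coe V hV
  have hc : ∀ g : E, Continuous fun x : E ⧸ Γ => g • x := fun g => continuous_const_smul g
  obtain ⟨s, hs⟩ : ∃ s : ℕ → Set (E ⧸ Γ), s = fun j =>
      (fun x : E ⧸ Γ => (b ^ ((N₀ + 1) * j))⁻¹ • x) ⁻¹' ((QuotientGroup.mk : E → E ⧸ Γ) '' V) :=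
    ⟨_, rfl⟩
  have hsm : ∀ j, MeasurableSet (s j) := fun j => by
    rw [hs]
    exact (hO.preimage (hc _)).measurableSet
  have hsv : ∀ j, ν (s j) = ν ((QuotientGroup.mk : E → E ⧸ Γ) '' V) := fun j => by
    rw [hs]
    exact hν _ _ hO.measurableSet
  have hsum : ν univ < ∑' j, ν (s j) := by
    simp_rw [hsv]
    rw [ENNReal.tsum_const_eq_top_of_ne_zero hpos]
    exact hνf
  obtain ⟨i, j, hij, x, hxi, hxj⟩ :=
    exists_nonempty_inter_of_measure_univ_lt_tsum_measure ν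
      (fun j => (hsm j).nullMeasurableSet) hsum
  have key : ∀ i j : ℕ, i < j → x ∈ s i → x ∈ s j →
      ∃ n : ℕ, N₀ ≤ n ∧ ∃ v₁ ∈ V, ∃ v₂ ∈ V, v₂⁻¹ * b ^ n * v₁ ∈ Γ := by
    intro i j hij hxi hxj
    rw [hs] at hxi hxj
    obtain ⟨vi, hvi, hi⟩ := hxi
    obtain ⟨vj, hvj, hj⟩ := hxj
    obtain ⟨d, hd⟩ := Nat.exists_eq_add_of_lt hij
    refine ⟨(N₀ + 1) * (d + 1), ?_, vj, hvj, vi, hvi, ?_⟩
    · nlinarith
    · have e1 : x = QuotientGroup.mk (b ^ ((N₀ + 1) * i) * vi) := by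
        have h1 : b ^ ((N₀ + 1) * i) • ((b ^ ((N₀ + 1) * i))⁻¹ • x) =
            b ^ ((N₀ + 1) * i) • (QuotientGroup.mk vi : E ⧸ Γ) := congrArg _ hi.symm
        rw [smul_inv_smul] at h1
        exact h1
      have e2 : x = QuotientGroup.mk (b ^ ((N₀ + 1) * j) * vj) := by
        have h1 : b ^ ((N₀ + 1) * j) • ((b ^ ((N₀ + 1) * j))⁻¹ • x) =
            b ^ ((N₀ + 1) * j) • (QuotientGroup.mk vj : E ⧸ Γ) := congrArg _ hj.symm
        rw [smul_inv_smul] at h1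
        exact h1
      have e3 := QuotientGroup.eq.1 (e1.symm.trans e2)
      have e4 : (b ^ ((N₀ + 1) * i) * vi)⁻¹ * (b ^ ((N₀ + 1) * j) * vj) =
          vi⁻¹ * b ^ ((N₀ + 1) * (d + 1)) * vj := by
        have e5 : (N₀ + 1) * j = (N₀ + 1) * i + (N₀ + 1) * (d + 1) := by
          rw [hd]; ring
        rw [e5, pow_add]
        group
      rwa [e4] at e3
  rcases lt_or_gt_of_ne hij with h | h
  · exact key i j h hxi hxj
  · exact key j i h hxj hxi

end rec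

section prox

variable {E : Type*} [Group E] [TopologicalSpace E] [IsTopologicalGroup E]
  [SecondCountableTopology E] [WeaklyLocallyCompactSpace E] {Y : Type*} [TopologicalSpace Y]
  [MulAction E Y]

/-- **[P-PROX], abstract form.** `b` contracts the points opposite to `ym` to `yp`; then a
subgroup of finite covolume maps every compact set of points opposite to a given point into
every nonempty open set. -/
theorem prox_abs (hc : Continuous fun p : E × Y => p.1 • p.2) (Γ : Subgroup E) (hΓ : Covol Γ)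
    (b : E) (yp ym : Y) (Op : Y → Y → Prop) (hopen : ∀ y₀, IsOpen {y | Op y y₀})
    (hinv : ∀ (g : E) x y, Op x y → Op (g • x) (g • y))
    (hcontr : ∀ D : Set Y, IsCompact D → (∀ y ∈ D, Op y ym) → ∀ U ∈ 𝓝 yp,
      ∀ᶠ n : ℕ in atTop, ∀ y ∈ D, b ^ n • y ∈ U)
    (htr : ∀ y₀ : Y, ∀ U : Set Y, IsOpen U → U.Nonempty → ∃ h : E, h • ym = y₀ ∧ h • yp ∈ U)
    (y₀ : Y) {D : Set Y} (hD : IsCompact D) (hDo : ∀ y ∈ D, Op y y₀) {U : Set Y} (hU : IsOpen U)
    (hUn : U.Nonempty) : ∃ γ ∈ Γ, ∀ y ∈ D, γ • y ∈ U := by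
  obtain ⟨h, hm, hp⟩ := htr y₀ U hU hUn
  -- a compact neighbourhood `C` of `1` with `C • D` opposite to `y₀`
  have h1 : ∀ᶠ v : E in 𝓝 1, ∀ y ∈ D, Op (v • y) y₀ := by
    refine hD.eventually_forall_of_forall_eventually fun y hy => ?_
    have h2 : Tendsto (fun p : E × Y => p.1 • p.2) (𝓝 (1, y)) (𝓝 ((1 : E) • y)) :=
      hc.tendsto (1, y)
    rw [one_smul] at h2
    exact h2.eventually ((hopen y₀).mem_nhds (hDo y hy))
  obtain ⟨C', hC', hC'1, hC'2⟩ : ∃ C' : Set E, IsCompact C' ∧ C' ∈ 𝓝 (1 : E) ∧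
      ∀ v ∈ C', ∀ y ∈ D, Op (v • y) y₀ := by
    haveI : LocallyCompactSpace E := inferInstance
    obtain ⟨C', h3, h4, h5⟩ := local_compact_nhds h1
    exact ⟨C', h5, h3, fun v hv => h4 hv⟩
  obtain ⟨D', hD'⟩ : ∃ D' : Set Y, D' = (fun p : E × Y => (h⁻¹ * p.1) • p.2) '' (C' ×ˢ D) :=
    ⟨_, rfl⟩
  have hD'c : IsCompact D' := by
    rw [hD']
    refine (hC'.prod hD).image ?_
    have e : (fun p : E × Y => (h⁻¹ * p.1) • p.2) =
        (fun p : E × Y => p.1 • p.2) ∘ fun p : E × Y => (h⁻¹ * p.1, p.2) := rfl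
    rw [e]
    exact hc.comp (by fun_prop)
  have hD'o : ∀ y ∈ D', Op y ym := by
    rw [hD']
    rintro _ ⟨⟨v, y⟩, ⟨hv, hy⟩, rfl⟩
    have h3 := hinv h⁻¹ _ _ (hC'2 v hv y hy)
    rw [← hm, inv_smul_smul, ← mul_smul] at h3
    exact h3
  -- the end
  have h4 : Tendsto (fun p : E × Y => p.1⁻¹ • (h • p.2)) (𝓝 (1, yp)) (𝓝 (h • yp)) := by
    have h5 : Continuous fun p : E × Y => p.1⁻¹ • (h • p.2) := by
      have e : (fun p : E × Y => p.1⁻¹ • (h • p.2)) =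
          (fun p : E × Y => p.1 • p.2) ∘ fun p : E × Y => (p.1⁻¹ * h, p.2) := by
        funext p
        exact (mul_smul _ _ _).symm
      rw [e]
      exact hc.comp (by fun_prop)
    have h6 := h5.tendsto (1, yp)
    simpa only [inv_one, one_smul] using h6
  have h7 := h4.eventually (hU.mem_nhds hp)
  rw [nhds_prod_eq] at h7
  obtain ⟨P₁, hP₁, P₂, hP₂, hP⟩ := eventually_prod_iff.1 h7
  obtain ⟨N₀, hN₀⟩ := eventually_atTop.1 (hcontr D' hD'c hD'o {y | P₂ y} hP₂)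
  obtain ⟨V₀, hV₀, hV₀o, hV₀1⟩ := mem_nhds_iff.1 (inter_mem hC'1 hP₁)
  obtain ⟨V, hV⟩ : ∃ V : Set E, V = (fun v : E => h * v) ⁻¹' V₀ := ⟨_, rfl⟩
  have hVo : IsOpen V := by
    rw [hV]
    exact hV₀o.preimage (by fun_prop)
  have hVn : V.Nonempty := ⟨h⁻¹, by
    rw [hV]
    change h * h⁻¹ ∈ V₀
    rw [mul_inv_cancel]
    exact hV₀1⟩
  obtain ⟨n, hn, w₁, hw₁, w₂, hw₂, hγ⟩ := recur Γ hΓ b hVo hVn N₀
  rw [hV] at hw₁ hw₂
  refine ⟨_, hγ, fun y hy => ?_⟩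
  have h8 : b ^ n • (w₁ • y) ∈ {y | P₂ y} := by
    refine hN₀ n hn _ ?_
    rw [hD']
    refine ⟨(h * w₁, y), ⟨(hV₀ hw₁).1, hy⟩, ?_⟩
    change (h⁻¹ * (h * w₁)) • y = w₁ • y
    rw [inv_mul_cancel_left]
  have h9 := hP (hV₀ hw₂).2 h8
  have e : (h * w₂)⁻¹ • (h • (b ^ n • (w₁ • y))) = (w₂⁻¹ * b ^ n * w₁) • y := by
    rw [← mul_smul, ← mul_smul, ← mul_smul]
    congr 1
    group
  rw [← e]
  exact h9

end prox

end Vale.Agent.P092.H673.Px
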