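import Vale.Agent.P092.H673.P.Prox4
import Vale.Agent.P092.SP.Defs

/-!
P092, TEAM P, row [P-PROX] (helper673), file 3: the fields `prox1`, `prox2` of `SP.PB` for every
subgroup of finite covolume of `Sp_4(k)`.
-/

set_option linter.all false

open Set Topology Filter TopologicalSpace Module Matrix
open scoped LinearAlgebra.Projectivization

namespace Vale.Agent.P092.H673.Px

open Vale.Agent.P092.SP4
open Vale.Agent.P092.SP (B1 B2 l0 mem_l0 on_y0_l0 opp1 opp2)
open Vale.Agent.P092.RC (YY y0)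
open Vale.Agent.P092.H514.NI (Covol)
open Vale.Agent.P092.H100.Gr (Gr smul_val)

section opp

variable {k : Type} [NontriviallyNormedField k]

theorem opp1_iff {x y : YY k 3} : opp1 x y ↔ ¬ prp x y := by
  constructor
  · intro h hp
    by_cases hxy : x = y
    · obtain ⟨l, -, -, hl, -⟩ := exists_two_ln x
      exact h l hl (hxy ▸ hl)
    · obtain ⟨l, h1, h2⟩ := exists_ln hxy hp
      exact h l h1 h2
  · intro h l h1 h2
    exact h (prp_of_on h1 h2)

/-- a vector of a line gives a point -/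
theorem pt_of_mem {l : LL k} {x : Fin 4 → k} (hx : x ∈ l.1.1) (hx0 : x ≠ 0) :
    on (Projectivization.mk k x hx0) l := (on_mk hx0).2 hx

theorem opp2_iff {l m : LL k} : opp2 l m ↔ ∀ x ∈ l.1.1, x ∈ m.1.1 → x = 0 := by
  constructor
  · intro h x hx hx'
    by_contra hx0
    exact h _ (pt_of_mem hx hx0) (pt_of_mem hx' hx0)
  · intro h x hx hx'
    exact x.rep_nonzero (h _ (on_iff.1 hx) (on_iff.1 hx'))

theorem opp2_symm {l m : LL k} (h : opp2 l m) : opp2 m l := fun x hx hx' => h x hx' hx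

theorem opp1_open [ProperSpace k] (z : YY k 3) : IsOpen {y : YY k 3 | opp1 y z} := by
  have e : {y : YY k 3 | opp1 y z} = OpP z := by
    ext y
    exact opp1_iff
  rw [e]
  exact opP_open z

theorem opp2_open [ProperSpace k] (z : LL k) : IsOpen {y : LL k | opp2 y z} := by
  have h1 : IsClosed {p : LL k × YY k 3 | on p.2 p.1 ∧ on p.2 z} := by
    refine IsClosed.inter (on_closed.preimage (continuous_snd.prodMk continuous_fst)) ?_
    exact on_closed.preimage (continuous_snd.prodMk continuous_const)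
  have h2 := isClosedMap_fst_of_compactSpace _ h1
  have e : {y : LL k | opp2 y z} = (Prod.fst '' {p : LL k × YY k 3 | on p.2 p.1 ∧ on p.2 z})ᶜ := by
    ext y
    constructor
    · rintro h ⟨⟨y', x⟩, ⟨h3, h4⟩, rfl⟩
      exact h x h3 h4
    · intro h x hx hx'
      exact h ⟨(y, x), ⟨hx, hx'⟩, rfl⟩
  rw [e]
  exact h2.isOpen_compl

theorem opp1_smul (g : S4 k) {x y : YY k 3} (h : opp1 x y) : opp1 (g • x) (g • y) := by
  rw [opp1_iff] at h ⊢
  exact fun h' => h ((prp_smul g).1 h')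

theorem opp2_smul (g : S4 k) {l m : LL k} (h : opp2 l m) : opp2 (g • l) (g • m) := by
  intro x hx hx'
  have e : g • (g⁻¹ • x) = x := smul_inv_smul g x
  rw [← e] at hx hx'
  exact h _ ((on_smul g).1 hx) ((on_smul g).1 hx')

theorem opp1_all (y : YY k 3) : ∃ z, opp1 y z := by
  obtain ⟨z, hz⟩ := exists_not_prp y
  exact ⟨z, opp1_iff.2 hz⟩

/-- small transvections -/
theorem exists_small {Y : Type*} [TopologicalSpace Y] [MulAction (S4 k) Y]
    [ContinuousSMul (S4 k) Y] (u : Fin 4 → k) {U : Set Y} (hU : IsOpen U) {y : Y} (hy : y ∈ U) :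
    ∃ s : k, s ≠ 0 ∧ Tv u s • y ∈ U := by
  have h1 : Continuous fun s : k => Tv u s • y := (Tv_cont u).smul continuous_const
  have h2 : Tendsto (fun s : k => Tv u s • y) (𝓝 0) (𝓝 (Tv u 0 • y)) := h1.tendsto 0
  rw [Tv_zero, one_smul] at h2
  have h3 : ∀ᶠ s in 𝓝 (0 : k), Tv u s • y ∈ U := h2.eventually (hU.mem_nhds hy)
  have h4 : ∀ᶠ s in 𝓝[≠] (0 : k), Tv u s • y ∈ U := h3.filter_mono nhdsWithin_le_nhds
  obtain ⟨s, hs, hs0⟩ := (h4.and self_mem_nhdsWithin).exists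
  exact ⟨s, hs0, hs⟩

/-- **density, points** -/
theorem dense1 (z : YY k 3) {U : Set (YY k 3)} (hU : IsOpen U) (hUn : U.Nonempty) :
    ∃ y ∈ U, opp1 y z := by
  obtain ⟨y, hy⟩ := hUn
  by_cases hp : prp y z
  · obtain ⟨u, hu1, hu2⟩ : ∃ u, om y.rep u ≠ 0 ∧ om u z.rep ≠ 0 := by
      obtain ⟨u₁, h1⟩ := om_nondeg y.rep_nonzero
      obtain ⟨u₂, h2⟩ := om_nondeg z.rep_nonzero
      have h2' : om u₂ z.rep ≠ 0 := by rw [om_swap]; exact neg_ne_zero.2 h2
      by_cases h3 : om u₁ z.rep = 0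
      · by_cases h4 : om y.rep u₂ = 0
        · refine ⟨u₁ + u₂, ?_, ?_⟩
          · rw [om_add_right, h4, add_zero]; exact h1
          · rw [om_add_left, h3, zero_add]; exact h2'
        · exact ⟨u₂, h4, h2'⟩
      · exact ⟨u₁, h1, h3⟩
    obtain ⟨s, hs, hs'⟩ := exists_small u hU hy
    refine ⟨_, hs', opp1_iff.2 fun h => ?_⟩
    have hp' : om y.rep z.rep = 0 := hp
    have e1 : Tv u s • y = Projectivization.mk k ((Tv u s).1 • y.rep)
        ((smul_ne_zero_iff_ne _).2 y.rep_nonzero) := by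
      conv_lhs => rw [← Projectivization.mk_rep y]
      rfl
    have e2 : z = Projectivization.mk k z.rep z.rep_nonzero := (Projectivization.mk_rep z).symm
    rw [e1, e2, prp_mk, Tv_smul, om_add_left, om_smul_left, hp', zero_add] at h
    exact mul_ne_zero (mul_ne_zero hs hu1) hu2 h
  · exact ⟨y, hy, opp1_iff.2 hp⟩

/-- a point not orthogonal to a point of a line -/
theorem exists_not_on_vec (l : LL k) : ∃ y ∈ l.1.1, ∃ u : Fin 4 → k, om y u ≠ 0 := by
  obtain ⟨a, -, -, ha, -⟩ := exists_on_ne' l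
  obtain ⟨u, hu⟩ := om_nondeg a.rep_nonzero
  exact ⟨a.rep, on_iff.1 ha, u, hu⟩

/-- **density, lines** -/
theorem dense2 (z : LL k) {U : Set (LL k)} (hU : IsOpen U) (hUn : U.Nonempty) :
    ∃ y ∈ U, opp2 y z := by
  -- a line of `U` different from `z`
  obtain ⟨m, hm, hmz⟩ : ∃ m ∈ U, m ≠ z := by
    obtain ⟨m, hm⟩ := hUn
    by_cases h : m = z
    · obtain ⟨y, hy, u, hu⟩ := exists_not_on_vec m
      obtain ⟨s, hs, hs'⟩ := exists_small u hU hm
      refine ⟨_, hs', fun h1 => ?_⟩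
      have h2 : (Tv u s).1 • y ∈ (Tv u s • m).1.1 := H100.Gr.smul_mem hy
      rw [h1, ← h, Tv_smul] at h2
      have h3 := m.2 _ hy _ h2
      rw [om_add_right, om_self, zero_add, om_smul_right] at h3
      exact mul_ne_zero (mul_ne_zero hs hu) hu h3
    · exact ⟨m, hm, h⟩
  by_cases hop : opp2 m z
  · exact ⟨m, hm, hop⟩
  · unfold SP.opp2 at hop
    push Not at hop
    obtain ⟨x, hx, hx'⟩ := hop
    obtain ⟨u, hu⟩ := om_nondeg x.rep_nonzero
    obtain ⟨s, hs, hs'⟩ := exists_small u hU hm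
    refine ⟨_, hs', opp2_iff.2 fun t ht ht' => ?_⟩
    have h1 : (Tv u s).1⁻¹ • t ∈ m.1.1 := H100.Gr.mem_smul.1 ht
    obtain ⟨y, hy⟩ : ∃ y, y = (Tv u s).1⁻¹ • t := ⟨_, rfl⟩
    rw [← hy] at h1
    have h2 : t = y + (s * om y u) • u := by
      rw [← Tv_smul, hy, smul_inv_smul]
    have h3 : om t x.rep = 0 := z.2 _ ht' _ (on_iff.1 hx')
    have h4 : om y x.rep = 0 := m.2 _ h1 _ (on_iff.1 hx)
    rw [h2, om_add_left, h4, zero_add, om_smul_left] at h3
    have h5 : om u x.rep ≠ 0 := by rw [om_swap]; exact neg_ne_zero.2 hu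
    have h6 : om y u = 0 := by
      rcases mul_eq_zero.1 h3 with h | h
      · rcases mul_eq_zero.1 h with h | h
        · exact absurd h hs
        · exact h
      · exact absurd h h5
    rw [h6, mul_zero, zero_smul, add_zero] at h2
    by_contra ht0
    have hy0 : y ≠ 0 := fun h => ht0 (h2.trans h)
    -- `y` is on both lines, so it is the point `x`
    have h7 : on (Projectivization.mk k y hy0) m := pt_of_mem h1 hy0
    have h8 : on (Projectivization.mk k y hy0) z := pt_of_mem (h2 ▸ ht') hy0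
    have h9 : Projectivization.mk k y hy0 = x := by
      by_contra hne
      exact hmz (on_unique hne h7 hx h8 hx')
    obtain ⟨a, ha⟩ := Projectivization.exists_smul_eq_mk_rep k y hy0
    rw [h9] at ha
    apply hu
    rw [← ha]
    change om ((a : k) • y) u = 0
    rw [om_smul_left, h6, mul_zero]

end opp

section ln

variable (k : Type) [NontriviallyNormedField k]

theorem sing23 : ∀ x ∈ Submodule.span k (range ![(Pi.single 2 1 : Fin 4 → k), Pi.single 3 1]),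
    x 0 = 0 ∧ x 1 = 0 := by
  intro x hx
  rw [Submodule.mem_span_range_iff_exists_fun] at hx
  obtain ⟨c, rfl⟩ := hx
  simp [Fin.sum_univ_two]

/-- the repelling line of `b2 w` -/
noncomputable def lm : LL k :=
  LL.mk' (Submodule.span k (range ![(Pi.single 2 1 : Fin 4 → k), Pi.single 3 1]))
    (fun x hx y hy => by
      obtain ⟨hx2, hx3⟩ := sing23 k x hx
      obtain ⟨hy2, hy3⟩ := sing23 k y hy
      rw [om_eq, hx2, hx3, hy2, hy3]
      ring)
    (by
      rw [finrank_span_eq_card, Fintype.card_fin]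
      rw [LinearIndependent.pair_iff]
      intro s t h
      have h0 := congrFun h 2
      have h1 := congrFun h 3
      simp at h0 h1
      exact ⟨h0, h1⟩)

variable {k}

theorem mem_lm {x : Fin 4 → k} : x ∈ (lm k).1.1 ↔ x 0 = 0 ∧ x 1 = 0 := by
  constructor
  · exact sing23 k x
  · rintro ⟨h0, h1⟩
    change x ∈ Submodule.span k (range ![(Pi.single 2 1 : Fin 4 → k), Pi.single 3 1])
    rw [Submodule.mem_span_range_iff_exists_fun]
    refine ⟨![x 2, x 3], ?_⟩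
    ext i
    fin_cases i <;> simp [Fin.sum_univ_two, h0, h1]

theorem opp_l0_lm : opp2 (l0 : LL k) (lm k) := by
  rw [opp2_iff]
  intro x hx hx'
  obtain ⟨h2, h3⟩ := mem_l0.1 hx
  obtain ⟨h0, h1⟩ := mem_lm.1 hx'
  funext i
  fin_cases i
  · exact h0
  · exact h1
  · exact h2
  · exact h3

/-- **contraction, lines** -/
theorem contr_ln [ProperSpace k] {w : kˣ} (hw : ‖(w : k)‖ < 1) {D : Set (LL k)}
    (hD : IsCompact D) (hDo : ∀ y ∈ D, opp2 y (lm k)) {U : Set (LL k)} (hU : U ∈ 𝓝 (l0 : LL k)) :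
    ∀ᶠ n : ℕ in atTop, ∀ y ∈ D, B2 w ^ n • y ∈ U := by
  have hind : IsInducing (fun l : LL k => (l.1 : Gr k (Fin 4) 2)) := ⟨rfl⟩
  rw [hind.nhds_eq_comap, mem_comap] at hU
  obtain ⟨U', hU', hUU⟩ := hU
  have h1 := contr_gr hw (l0 : LL k).1 (fun x h2 h3 => mem_l0.2 ⟨h2, h3⟩)
    (hD.image val_cont) (by
      rintro _ ⟨l, hl, rfl⟩ x hx h0 h1
      exact (opp2_iff.1 (hDo l hl)) x hx (mem_lm.2 ⟨h0, h1⟩)) hU'
  filter_upwards [h1] with n hn y hy
  refine hUU ?_
  change (B2 w ^ n • y).1 ∈ U'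
  rw [smul_LL]
  exact hn _ ⟨y, hy, rfl⟩

theorem contr_pt' [ProperSpace k] {w : kˣ} (hw : ‖(w : k)‖ < 1) {D : Set (YY k 3)}
    (hD : IsCompact D) (hDo : ∀ y ∈ D, opp1 y (ym : YY k 3)) {U : Set (YY k 3)}
    (hU : U ∈ 𝓝 (y0 : YY k 3)) : ∀ᶠ n : ℕ in atTop, ∀ y ∈ D, B1 w ^ n • y ∈ U :=
  contr_pt hw hD (fun y hy => opp1_iff.1 (hDo y hy)) hU

theorem opp_y0_ym : opp1 (y0 : YY k 3) (ym : YY k 3) := by
  rw [opp1_iff]
  have h := (opP_ym (k := k) (v := Pi.single 0 1) (by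
    intro h
    have := congrFun h 0
    simp at this)).2 (by simp)
  exact h

end ln

section main

variable {k : Type} [NontriviallyNormedField k] [ProperSpace k]
  [SecondCountableTopology (S4 k)] [LocallyCompactSpace (S4 k)]

theorem exists_w : ∃ w : kˣ, ‖(w : k)‖ < 1 := by
  obtain ⟨x, hx0, hx1⟩ := NormedField.exists_norm_lt_one k
  exact ⟨Units.mk0 x (norm_pos_iff.1 hx0), hx1⟩

/-- **[P-PROX], points**: the field `prox1` -/
theorem prox_pt (Γ : Subgroup (S4 k)) (hΓ : Covol Γ) (z : YY k 3) (D : Set (YY k 3))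
    (hD : IsCompact D) (hDo : ∀ y ∈ D, opp1 y z) (U : Set (YY k 3)) (hU : IsOpen U)
    (hUn : U.Nonempty) : ∃ γ ∈ Γ, ∀ y ∈ D, γ • y ∈ U := by
  obtain ⟨w, hw⟩ := exists_w (k := k)
  refine prox_abs (Y := YY k 3) continuous_smul Γ hΓ (B1 w) y0 ym opp1 opp1_open
    (fun g x y h => opp1_smul g h) (fun D hD hDo U hU => contr_pt' hw hD hDo hU) ?_ z hD hDo
    hU hUn
  intro y₀ U hU hUn
  obtain ⟨y, hy, hyo⟩ := dense1 y₀ hU hUn
  obtain ⟨h, h1, h2⟩ := trans_opp (opp1_iff.1 (opp_y0_ym (k := k))) (opp1_iff.1 hyo)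
  exact ⟨h, h2, by rw [h1]; exact hy⟩

/-- **[P-PROX], lines**: the field `prox2` -/
theorem prox_ln (Γ : Subgroup (S4 k)) (hΓ : Covol Γ) (z : LL k) (D : Set (LL k))
    (hD : IsCompact D) (hDo : ∀ y ∈ D, opp2 y z) (U : Set (LL k)) (hU : IsOpen U)
    (hUn : U.Nonempty) : ∃ γ ∈ Γ, ∀ y ∈ D, γ • y ∈ U := by
  obtain ⟨w, hw⟩ := exists_w (k := k)
  refine prox_abs (Y := LL k) continuous_smul Γ hΓ (B2 w) l0 (lm k) opp2 opp2_open
    (fun g x y h => opp2_smul g h) (fun D hD hDo U hU => contr_ln hw hD hDo hU) ?_ z hD hDo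
    hU hUn
  intro y₀ U hU hUn
  obtain ⟨y, hy, hyo⟩ := dense2 y₀ hU hUn
  obtain ⟨h, h1, h2⟩ := trans_oppL (opp_l0_lm (k := k)) hyo
  exact ⟨h, h2, by rw [h1]; exact hy⟩

/-- the field `prox1` for `q : Γ →* Sp_4(k)` -/
theorem prox1_of {Γ : Type} [Group Γ] (q : Γ →* S4 k) (hΓ : Covol q.range) :
    ∀ (z : YY k 3) (D : Set (YY k 3)), IsCompact D → (∀ y ∈ D, opp1 y z) →
    ∀ U : Set (YY k 3), IsOpen U → U.Nonempty → ∃ γ, ∀ y ∈ D, q γ • y ∈ U := by
  intro z D hD hDo U hU hUn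
  obtain ⟨_, ⟨γ, rfl⟩, h⟩ := prox_pt q.range hΓ z D hD hDo U hU hUn
  exact ⟨γ, h⟩

/-- the field `prox2` for `q : Γ →* Sp_4(k)` -/
theorem prox2_of {Γ : Type} [Group Γ] (q : Γ →* S4 k) (hΓ : Covol q.range) :
    ∀ (z : LL k) (D : Set (LL k)), IsCompact D → (∀ y ∈ D, opp2 y z) →
    ∀ U : Set (LL k), IsOpen U → U.Nonempty → ∃ γ, ∀ y ∈ D, q γ • y ∈ U := by
  intro z D hD hDo U hU hUn
  obtain ⟨_, ⟨γ, rfl⟩, h⟩ := prox_ln q.range hΓ z D hD hDo U hU hUn
  exact ⟨γ, h⟩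

end main

end Vale.Agent.P092.H673.Px
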