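import Vale.Agent.P092.H673.P.Rec
import Vale.Agent.P092.H370.Sp4b

/-!
P092, TEAM P, row [P-PROX] (helper673), file 2: the walls of `Sp_4(k)` contract the points
(lines) opposite to the repelling point (line); a nonempty open set contains a point (line)
opposite to a given one.
-/

set_option linter.all false

open Set Topology Filter TopologicalSpace Module Matrix
open scoped LinearAlgebra.Projectivization

namespace Vale.Agent.P092.H673.Px

open Vale.Agent.P092.SP4
open Vale.Agent.P092.RC (YY y0)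
open Vale.Agent.P092.H820 (pj pj_oq pj_open pj_surj pj_continuous)
open Vale.Agent.P092.H100.Gr (Gr Fr sp sp_cont sp_open sp_surj sp_oq fr_val_cont mn mn_cont li_of_mn
  li_iff eq_of_le smul_val)
open Vale.Agent.P092.H714.Cl (tv tvm tv_val tv_mem tv_zero vecMul_tv)

section alg

variable {k : Type} [Field k]

theorem b1_mul (w w' : kˣ) : b1 (w * w') = b1 w * b1 w' := by
  refine Subtype.ext ?_
  change Matrix.diagonal _ = Matrix.diagonal _ * Matrix.diagonal _
  rw [Matrix.diagonal_mul_diagonal]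
  congr 1
  funext i
  fin_cases i <;> simp [mul_comm]

theorem b1_one : b1 (1 : kˣ) = 1 := by
  refine Subtype.ext ?_
  change Matrix.diagonal _ = (1 : Matrix (Fin 4) (Fin 4) k)
  rw [← Matrix.diagonal_one]
  congr 1
  funext i
  fin_cases i <;> simp

theorem b1_pow (w : kˣ) (n : ℕ) : b1 w ^ n = b1 (w ^ n) := by
  induction n with
  | zero => rw [pow_zero, pow_zero, b1_one]
  | succ n ih => rw [pow_succ, pow_succ, ih, b1_mul]

theorem b2_mul (w w' : kˣ) : b2 (w * w') = b2 w * b2 w' := by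
  refine Subtype.ext ?_
  change Matrix.diagonal _ = Matrix.diagonal _ * Matrix.diagonal _
  rw [Matrix.diagonal_mul_diagonal]
  congr 1
  funext i
  fin_cases i <;> simp [mul_comm]

theorem b2_one : b2 (1 : kˣ) = 1 := by
  refine Subtype.ext ?_
  change Matrix.diagonal _ = (1 : Matrix (Fin 4) (Fin 4) k)
  rw [← Matrix.diagonal_one]
  congr 1
  funext i
  fin_cases i <;> simp

theorem b2_pow (w : kˣ) (n : ℕ) : b2 w ^ n = b2 (w ^ n) := by
  induction n with
  | zero => rw [pow_zero, pow_zero, b2_one]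
  | succ n ih => rw [pow_succ, pow_succ, ih, b2_mul]

/-- the transvection `x ↦ x + s om(x, u) u` -/
noncomputable def Tv (u : Fin 4 → k) (s : k) : S4 k :=
  ⟨tps (tv (RingHom.id k) (J4 k) u s), tps_mem (tv_mem frm4 (om_self u) (by simp))⟩

theorem Tv_smul (u : Fin 4 → k) (s : k) (x : Fin 4 → k) :
    (Tv u s).1 • x = x + (s * om x u) • u := by
  change tps _ • x = _
  have h : H714.Cl.hf (RingHom.id k) (J4 k) u u = 0 := om_self u
  rw [tps_smul, vecMul_tv h]
  rfl

theorem Tv_zero (u : Fin 4 → k) : Tv u (0 : k) = 1 := by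
  refine Subtype.ext (Subtype.ext ?_)
  change ((tv (RingHom.id k) (J4 k) u 0).1)ᵀ = 1
  rw [tv_zero]
  exact Matrix.transpose_one

end alg

section top

variable {k : Type} [NontriviallyNormedField k]

theorem Tv_cont (u : Fin 4 → k) : Continuous fun s : k => Tv u s := by
  refine Continuous.subtype_mk (Continuous.subtype_mk ?_ _) _
  refine Continuous.matrix_transpose ?_
  have e : (fun s : k => (tv (RingHom.id k) (J4 k) u s).1) =
      fun s : k => tvm (RingHom.id k) (J4 k) u s := by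
    funext s
    have h : H714.Cl.hf (RingHom.id k) (J4 k) u u = 0 := om_self u
    exact tv_val h s
  rw [e]
  unfold tvm
  fun_prop

theorem om_cont : Continuous fun p : (Fin 4 → k) × (Fin 4 → k) => om p.1 p.2 := by
  have e : (fun p : (Fin 4 → k) × (Fin 4 → k) => om p.1 p.2) = fun p =>
      p.1 0 * p.2 3 + p.1 1 * p.2 2 - p.1 2 * p.2 1 - p.1 3 * p.2 0 := by
    funext p
    exact om_eq _ _
  rw [e]
  fun_prop

/-- the points opposite to `y` -/
def OpP (y : YY k 3) : Set (YY k 3) := {x | ¬ prp x y}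

theorem opP_open [ProperSpace k] (y : YY k 3) : IsOpen (OpP y) := by
  have h : IsClosed {x : YY k 3 | prp x y} :=
    prp_closed.preimage (continuous_id.prodMk continuous_const)
  exact h.isOpen_compl

theorem opP_smul (g : S4 k) {x y : YY k 3} (h : x ∈ OpP y) : g • x ∈ OpP (g • y) :=
  fun h' => h ((prp_smul g).1 h')

end top

section contrP

variable {k : Type} [NontriviallyNormedField k]

/-- the repelling point of `b1 w` -/
noncomputable def ym : YY k 3 :=
  Projectivization.mk k (Pi.single 3 1) (by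
    intro h
    have := congrFun h 3
    simp at this)

theorem opP_ym {v : Fin 4 → k} (hv : v ≠ 0) :
    Projectivization.mk k v hv ∈ OpP (ym : YY k 3) ↔ v 0 ≠ 0 := by
  change ¬ prp _ _ ↔ _
  unfold ym
  rw [prp_mk, om_eq]
  simp

/-- the contracting family -/
def gp (s : k) (v : Fin 4 → k) : Fin 4 → k := ![v 0, s * v 1, s * v 2, s ^ 2 * v 3]

theorem gp_cont : Continuous fun p : k × (Fin 4 → k) => gp p.1 p.2 := by
  unfold gp
  refine continuous_pi fun i => ?_
  fin_cases i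
  · change Continuous fun p : k × (Fin 4 → k) => p.2 0
    fun_prop
  · change Continuous fun p : k × (Fin 4 → k) => p.1 * p.2 1
    fun_prop
  · change Continuous fun p : k × (Fin 4 → k) => p.1 * p.2 2
    fun_prop
  · change Continuous fun p : k × (Fin 4 → k) => p.1 ^ 2 * p.2 3
    fun_prop

theorem gp_pow (w : kˣ) (n : ℕ) (v : Fin 4 → k) :
    gp ((w : k) ^ n) v = ((w : k) ^ n) • (b1 w ^ n • v) := by
  rw [b1_pow]
  change gp ((w : k) ^ n) v = ((w : k) ^ n) • (Matrix.diagonal _ *ᵥ v)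
  funext i
  rw [Pi.smul_apply, Matrix.mulVec_diagonal]
  have hw : (w : k) ^ n ≠ 0 := pow_ne_zero _ w.ne_zero
  fin_cases i
  · change v 0 = ((w : k) ^ n) • ((((w ^ n)⁻¹ : kˣ) : k) * v 0)
    rw [smul_eq_mul, ← mul_assoc, ← Units.val_pow_eq_pow_val, Units.mul_inv, one_mul]
  · change (w : k) ^ n * v 1 = ((w : k) ^ n) • (1 * v 1)
    rw [one_mul, smul_eq_mul]
  · change (w : k) ^ n * v 2 = ((w : k) ^ n) • (1 * v 2)
    rw [one_mul, smul_eq_mul]
  · change ((w : k) ^ n) ^ 2 * v 3 = ((w : k) ^ n) • (((w ^ n : kˣ) : k) * v 3)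
    rw [smul_eq_mul, Units.val_pow_eq_pow_val]
    ring

/-- **contraction, points** -/
theorem contr_pt {w : kˣ} (hw : ‖(w : k)‖ < 1) {D : Set (YY k 3)} (hD : IsCompact D)
    (hDo : ∀ y ∈ D, y ∈ OpP (ym : YY k 3)) {U : Set (YY k 3)} (hU : U ∈ 𝓝 (y0 : YY k 3)) :
    ∀ᶠ n : ℕ in atTop, ∀ y ∈ D, b1 w ^ n • y ∈ U := by
  obtain ⟨U', hU', hU'o, hU'y⟩ := mem_nhds_iff.1 hU
  have key : ∀ᶠ s : k in 𝓝 0, ∀ y ∈ D, ∀ n : ℕ, (w : k) ^ n = s → b1 w ^ n • y ∈ U := by
    refine hD.eventually_forall_of_forall_eventually fun y hy => ?_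
    obtain ⟨v, rfl⟩ := pj_surj y
    have hv0 : v.1 0 ≠ 0 := (opP_ym v.2).1 (hDo _ hy)
    obtain ⟨O, hO⟩ : ∃ O : Set (Fin 4 → k), O = Subtype.val '' ((pj k (Fin 4)) ⁻¹' U') :=
      ⟨_, rfl⟩
    have hOo : IsOpen O := by
      rw [hO]
      exact (isOpen_ne (x := (0 : Fin 4 → k))).isOpenMap_subtype_val _
        (hU'o.preimage pj_continuous)
    have hg0 : gp 0 v.1 ∈ O := by
      have e : gp 0 v.1 = v.1 0 • (Pi.single 0 1 : Fin 4 → k) := by
        funext i
        fin_cases i <;> simp [gp]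
      have hne : gp 0 v.1 ≠ 0 := by
        intro h
        exact hv0 (congrFun h 0)
      rw [hO]
      refine ⟨⟨gp 0 v.1, hne⟩, ?_, rfl⟩
      change Projectivization.mk k (gp 0 v.1) hne ∈ U'
      have e2 : Projectivization.mk k (gp 0 v.1) hne = (y0 : YY k 3) := by
        unfold y0
        rw [Projectivization.mk_eq_mk_iff']
        exact ⟨v.1 0, e.symm⟩
      rw [e2]
      exact hU'y
    have h1 : ∀ᶠ p : k × {v : Fin 4 → k // v ≠ 0} in 𝓝 (0, v), gp p.1 p.2.1 ∈ O := by
      have h2 : Continuous fun p : k × {v : Fin 4 → k // v ≠ 0} => gp p.1 p.2.1 :=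
        gp_cont.comp (continuous_fst.prodMk (continuous_subtype_val.comp continuous_snd))
      exact (h2.tendsto (0, v)).eventually (hOo.mem_nhds hg0)
    have h3 : IsOpenMap (Prod.map (id : k → k) (pj k (Fin 4))) := IsOpenMap.id.prodMap pj_open
    have h4 := h3.image_mem_nhds h1
    filter_upwards [h4]
    rintro _ ⟨⟨s, v'⟩, hv', rfl⟩ n hn
    change (w : k) ^ n = s at hn
    change gp s v'.1 ∈ O at hv'
    change b1 w ^ n • (pj k (Fin 4) v') ∈ U
    rw [← hn, hO] at hv'
    obtain ⟨⟨z, hz⟩, hz1, hz2⟩ := hv'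
    change z = _ at hz2
    refine hU' ?_
    have e : (b1 w ^ n • (pj k (Fin 4) v') : YY k 3) = pj k (Fin 4) ⟨z, hz⟩ := by
      have e3 : pj k (Fin 4) v' = Projectivization.mk k v'.1 v'.2 := rfl
      have e4 : pj k (Fin 4) ⟨z, hz⟩ = Projectivization.mk k z hz := rfl
      rw [e3, e4, Projectivization.smul_mk, Projectivization.mk_eq_mk_iff']
      refine ⟨((w : k) ^ n)⁻¹, ?_⟩
      rw [hz2, gp_pow, smul_smul, inv_mul_cancel₀ (pow_ne_zero _ w.ne_zero), one_smul]
    rw [e]
    exact hz1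
  have h5 : Tendsto (fun n : ℕ => (w : k) ^ n) atTop (𝓝 0) :=
    tendsto_pow_atTop_nhds_zero_of_norm_lt_one hw
  filter_upwards [h5.eventually key] with n hn y hy
  exact hn y hy n rfl

end contrP

section contrL

variable {k : Type} [NontriviallyNormedField k]

/-- the contracting family, lines -/
def gl (s : k) (v : Fin 2 → Fin 4 → k) : Fin 2 → Fin 4 → k :=
  fun b => ![v b 0, v b 1, s ^ 2 * v b 2, s ^ 2 * v b 3]

theorem gl_cont : Continuous fun p : k × (Fin 2 → Fin 4 → k) => gl p.1 p.2 := by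
  unfold gl
  refine continuous_pi fun b => continuous_pi fun i => ?_
  fin_cases i
  · change Continuous fun p : k × (Fin 2 → Fin 4 → k) => p.2 b 0
    fun_prop
  · change Continuous fun p : k × (Fin 2 → Fin 4 → k) => p.2 b 1
    fun_prop
  · change Continuous fun p : k × (Fin 2 → Fin 4 → k) => p.1 ^ 2 * p.2 b 2
    fun_prop
  · change Continuous fun p : k × (Fin 2 → Fin 4 → k) => p.1 ^ 2 * p.2 b 3
    fun_prop

theorem gl_pow (w : kˣ) (n : ℕ) (v : Fin 2 → Fin 4 → k) (b : Fin 2) :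
    gl ((w : k) ^ n) v b = ((w : k) ^ n) • (b2 w ^ n • v b) := by
  rw [b2_pow]
  change gl ((w : k) ^ n) v b = ((w : k) ^ n) • (Matrix.diagonal _ *ᵥ v b)
  funext i
  rw [Pi.smul_apply, Matrix.mulVec_diagonal]
  fin_cases i
  · change v b 0 = ((w : k) ^ n) • ((((w ^ n)⁻¹ : kˣ) : k) * v b 0)
    rw [smul_eq_mul, ← mul_assoc, ← Units.val_pow_eq_pow_val, Units.mul_inv, one_mul]
  · change v b 1 = ((w : k) ^ n) • ((((w ^ n)⁻¹ : kˣ) : k) * v b 1)
    rw [smul_eq_mul, ← mul_assoc, ← Units.val_pow_eq_pow_val, Units.mul_inv, one_mul]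
  · change ((w : k) ^ n) ^ 2 * v b 2 = ((w : k) ^ n) • (((w ^ n : kˣ) : k) * v b 2)
    rw [smul_eq_mul, Units.val_pow_eq_pow_val]
    ring
  · change ((w : k) ^ n) ^ 2 * v b 3 = ((w : k) ^ n) • (((w ^ n : kˣ) : k) * v b 3)
    rw [smul_eq_mul, Units.val_pow_eq_pow_val]
    ring

theorem li_open : IsOpen {v : Fin 2 → Fin 4 → k | LinearIndependent k v} := by
  have e : {v : Fin 2 → Fin 4 → k | LinearIndependent k v} =
      ⋃ I : Fin 2 → Fin 4, {v | mn I v ≠ 0} := by
    ext v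
    rw [mem_iUnion]
    exact li_iff
  rw [e]
  exact isOpen_iUnion fun I => isOpen_ne_fun (mn_cont I) continuous_const

/-- **contraction, planes** -/
theorem contr_gr {w : kˣ} (hw : ‖(w : k)‖ < 1) (L₀ : Gr k (Fin 4) 2)
    (hL₀ : ∀ x : Fin 4 → k, x 2 = 0 → x 3 = 0 → x ∈ L₀.1) {D : Set (Gr k (Fin 4) 2)}
    (hD : IsCompact D) (hDo : ∀ L ∈ D, ∀ x ∈ L.1, x 0 = 0 → x 1 = 0 → x = 0)
    {U : Set (Gr k (Fin 4) 2)} (hU : U ∈ 𝓝 L₀) :
    ∀ᶠ n : ℕ in atTop, ∀ L ∈ D, b2 w ^ n • L ∈ U := by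
  obtain ⟨U', hU', hU'o, hU'y⟩ := mem_nhds_iff.1 hU
  have key : ∀ᶠ s : k in 𝓝 0, ∀ L ∈ D, ∀ n : ℕ, (w : k) ^ n = s → b2 w ^ n • L ∈ U := by
    refine hD.eventually_forall_of_forall_eventually fun L hL => ?_
    obtain ⟨v, rfl⟩ := sp_surj L
    have hv0 : mn (![0, 1] : Fin 2 → Fin 4) v.1 ≠ 0 := by
      intro h0
      unfold mn at h0
      obtain ⟨c, hc, hc0⟩ := Matrix.exists_vecMul_eq_zero_iff.2 h0
      have h1 : (∑ b, c b • v.1 b) = 0 := by
        refine hDo _ hL _ ?_ ?_ ?_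
        · exact Submodule.sum_mem _ fun b _ => Submodule.smul_mem _ _
            (Submodule.subset_span ⟨b, rfl⟩)
        · have h2 := congrFun hc0 0
          rw [Matrix.vecMul, dotProduct] at h2
          simpa [Finset.sum_apply] using h2
        · have h2 := congrFun hc0 1
          rw [Matrix.vecMul, dotProduct] at h2
          simpa [Finset.sum_apply] using h2
      apply hc
      funext b
      exact (Fintype.linearIndependent_iff.1 v.2) c h1 b
    obtain ⟨O, hO⟩ : ∃ O : Set (Fin 2 → Fin 4 → k), O =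
        (fun x : Fr k (Fin 4) 2 => x.1) '' (sp ⁻¹' U') := ⟨_, rfl⟩
    have hOo : IsOpen O := by
      rw [hO]
      exact (li_open (k := k)).isOpenMap_subtype_val _ (hU'o.preimage sp_cont)
    have hg0 : gl 0 v.1 ∈ O := by
      have e1 : mn (![0, 1] : Fin 2 → Fin 4) (gl 0 v.1) = mn (![0, 1] : Fin 2 → Fin 4) v.1 := by
        unfold mn
        congr 1
        ext b a
        fin_cases a <;> rfl
      have hli : LinearIndependent k (gl 0 v.1) := li_of_mn (by rw [e1]; exact hv0)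
      rw [hO]
      refine ⟨⟨gl 0 v.1, hli⟩, ?_, rfl⟩
      change sp (⟨gl 0 v.1, hli⟩ : Fr k (Fin 4) 2) ∈ U'
      have e2 : sp (⟨gl 0 v.1, hli⟩ : Fr k (Fin 4) 2) = L₀ := by
        refine eq_of_le ?_
        change Submodule.span k (range (gl 0 v.1)) ≤ L₀.1
        rw [Submodule.span_le]
        rintro _ ⟨b, rfl⟩
        refine hL₀ _ ?_ ?_
        · change (0 : k) ^ 2 * _ = 0
          ring
        · change (0 : k) ^ 2 * _ = 0
          ring
      rw [e2]
      exact hU'y
    have h1 : ∀ᶠ p : k × Fr k (Fin 4) 2 in 𝓝 (0, v), gl p.1 p.2.1 ∈ O := by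
      have h2 : Continuous fun p : k × Fr k (Fin 4) 2 => gl p.1 p.2.1 :=
        gl_cont.comp (continuous_fst.prodMk (fr_val_cont.comp continuous_snd))
      exact (h2.tendsto (0, v)).eventually (hOo.mem_nhds hg0)
    have h3 : IsOpenMap (Prod.map (id : k → k) (sp (k := k) (ι := Fin 4) (j := 2))) :=
      IsOpenMap.id.prodMap sp_open
    have h4 := h3.image_mem_nhds h1
    filter_upwards [h4]
    rintro _ ⟨⟨s, v'⟩, hv', rfl⟩ n hn
    change (w : k) ^ n = s at hn
    change gl s v'.1 ∈ O at hv'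
    change b2 w ^ n • sp v' ∈ U
    rw [← hn, hO] at hv'
    obtain ⟨⟨z, hz⟩, hz1, hz2⟩ := hv'
    change z = _ at hz2
    refine hU' ?_
    have e : b2 w ^ n • sp v' = sp (⟨z, hz⟩ : Fr k (Fin 4) 2) := by
      refine (eq_of_le ?_).symm
      change Submodule.span k (range z) ≤ _
      rw [Submodule.span_le]
      rintro _ ⟨b, rfl⟩
      rw [hz2, gl_pow]
      exact Submodule.smul_mem _ _ (H100.Gr.smul_mem (Submodule.subset_span ⟨b, rfl⟩))
    rw [e]
    exact hz1
  have h5 : Tendsto (fun n : ℕ => (w : k) ^ n) atTop (𝓝 0) :=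
    tendsto_pow_atTop_nhds_zero_of_norm_lt_one hw
  filter_upwards [h5.eventually key] with n hn y hy
  exact hn y hy n rfl

end contrL

end Vale.Agent.P092.H673.Px
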